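import Vale.Agent.P352X.Api4
import Vale.Agent.P352X.Api2

/-!
# P352X, row IB: one sided profiles, plateaus as superpositions of dilates (helper83)
-/

set_option linter.all false

open MeasureTheory Filter Topology Set
open scoped SchwartzMap ContDiff

namespace Vale.Agent.P352X.Ib

open Vale.Agent.P352.H755 (Tst)
open Api4 (Fam)

noncomputable section

/-- `-t θ'(t)` on `σ t > 0` -/
def ch (σ : ℝ) (θ : ℝ → ℝ) (t : ℝ) : ℝ := if 0 < σ * t then -t * deriv θ t else 0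
/-- the part of `θ1` on the side `σ`, cut at the distance `δ` -/
def ab (σ : ℝ) (θ1 θ : ℝ → ℝ) (δ t : ℝ) : ℝ := if 0 < σ * t then θ1 t * (1 - θ (t / δ)) else 0

lemma chp_eq (θ : ℝ → ℝ) : chp θ = ch 1 θ := by funext t; simp [chp, ch]
lemma chm_eq (θ : ℝ → ℝ) : chm θ = ch (-1) θ := by funext t; simp [chm, ch]
lemma abv_eq (θ1 θ : ℝ → ℝ) (δ : ℝ) : abv θ1 θ δ = ab 1 θ1 θ δ := by funext t; simp [abv, ab]
lemma blw_eq (θ1 θ : ℝ → ℝ) (δ : ℝ) : blw θ1 θ δ = ab (-1) θ1 θ δ := by funext t; simp [blw, ab]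

/-- test functions on one side of zero -/
def Sd (φ : ℝ → ℝ) : Prop := Tst φ ∧ ∃ b1 b2 : ℝ, (b2 < 0 ∨ 0 < b1) ∧ tsupport φ ⊆ Icc b1 b2

variable {φ χ θ θ1 u : ℝ → ℝ} {σ s δ ε R : ℝ}

lemma Sd.d0 (h : Sd φ) : D0 φ := ⟨h.1, fun k => by
  obtain ⟨b1, b2, h1, h2⟩ := h.2
  rcases h1 with h1 | h1 <;> linarith [(h2 k).1, (h2 k).2]⟩

lemma rad (h : Tst φ) : ∃ R > (0 : ℝ), ∀ t, R ≤ |t| → φ t = 0 := by
  obtain ⟨R, h1, h2⟩ := h.2.exists_pos_le_norm
  exact ⟨R, h1, h2⟩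

lemma tst_dil (h : Tst φ) (hs : 0 < s) : Tst (dil s φ) := by
  have := Ap.cs_smul (inv_pos.2 hs).ne' h
  simp only [smul_eq_mul, ← div_eq_inv_mul] at this
  exact this

lemma dil_dil (r s : ℝ) (φ : ℝ → ℝ) : dil r (dil s φ) = dil (r * s) φ := by
  funext t; simp only [dil, div_div]

lemma dil_one (φ : ℝ → ℝ) : dil 1 φ = φ := by funext t; simp [dil]

lemma Sd.dil (h : Sd φ) (hs : 0 < s) : Sd (dil s φ) := by
  obtain ⟨h0, b1, b2, h1, h2⟩ := h
  refine ⟨tst_dil h0 hs, s * b1, s * b2, h1.imp (mul_neg_of_pos_of_neg hs) (mul_pos hs),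
    Ap.tsupp_sub isClosed_Icc fun t ht => ?_⟩
  have := h2 (subset_tsupport _ ht)
  exact ⟨(le_div_iff₀' hs).1 this.1, (div_le_iff₀' hs).1 this.2⟩

lemma Sd.mul (h : Sd φ) (hu : ContDiff ℝ ∞ u) : Sd fun t => u t * φ t :=
  ⟨Ap.cs_mul_l hu h.1, h.2.imp fun _ => Exists.imp fun _ k =>
    ⟨k.1, (Ap.tsupp_of_zero fun t j => by rw [j, mul_zero]).trans k.2⟩⟩

lemma sd_cut (hσ : σ = 1 ∨ σ = -1) (hu : Tst u) {η : ℝ} (hη : 0 < η) (h : ∀ t, |t| < η → u t = 0) :
    Sd fun t => if 0 < σ * t then u t else 0 := by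
  obtain ⟨R, -, hR⟩ := rad hu
  have k : ∀ t, (if 0 < σ * t then u t else 0) ≠ 0 → 0 < σ * t ∧ η ≤ |t| ∧ |t| ≤ R := fun t j => by
    by_cases i : 0 < σ * t
    · rw [if_pos i] at j
      exact ⟨i, le_of_not_gt fun m => j (h t m), le_of_not_ge fun m => j (hR t m)⟩
    · exact absurd (if_neg i) j
  refine ⟨Ap.cs_of (contDiff_iff_contDiffAt.2 fun t => ?_) (isCompact_Icc (a := -R) (b := R))
    fun t j => by_contra fun i => j (abs_le.1 (k t i).2.2), ?_⟩
  · have c : ContinuousAt (fun t => σ * t) t := by fun_prop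
    rcases lt_trichotomy 0 (σ * t) with i | i | i
    · exact hu.1.contDiffAt.congr_of_eventuallyEq
        ((c.eventually (lt_mem_nhds i)).mono fun y hy => if_pos hy)
    · have : |t| < η := by
        have : t = 0 := by rcases hσ with rfl | rfl <;> linarith
        rwa [this, abs_zero]
      exact (contDiffAt_const (c := 0)).congr_of_eventuallyEq
        ((continuous_abs.continuousAt.eventually (gt_mem_nhds this)).mono fun y hy => by
          simp [h y hy])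
    · exact (contDiffAt_const (c := 0)).congr_of_eventuallyEq
        ((c.eventually (gt_mem_nhds i)).mono fun y hy => if_neg hy.not_gt)
  · rcases hσ with rfl | rfl
    · refine ⟨η, R, .inr hη, Ap.tsupp_sub isClosed_Icc fun t j => ?_⟩
      have := k t j
      rw [one_mul] at this
      rw [abs_of_pos this.1] at this
      exact this.2
    · refine ⟨-R, -η, .inl (neg_neg_of_pos hη), Ap.tsupp_sub isClosed_Icc fun t j => ?_⟩
      have := k t j
      rw [neg_one_mul, neg_pos] at this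
      rw [abs_of_neg this.1] at this
      exact ⟨by linarith [this.2.2], by linarith [this.2.1]⟩

lemma sd_ch (hσ : σ = 1 ∨ σ = -1) (h : Bump θ) : Sd (ch σ θ) :=
  sd_cut hσ (Ap.cs_mul_l contDiff_neg (Ap.cs_deriv h.1)) one_pos fun t j => by
    have : θ =ᶠ[𝓝 t] fun _ => 1 := (continuous_abs.continuousAt.eventually
      (gt_mem_nhds j)).mono fun y hy => h.2.2 y hy.le
    rw [this.deriv_eq, deriv_const, mul_zero]

lemma sd_ab (hσ : σ = 1 ∨ σ = -1) (h1 : Tst θ1) (h : Bump θ) (hδ : 0 < δ) : Sd (ab σ θ1 θ δ) :=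
  sd_cut hσ (Ap.cs_mul_r h1 (contDiff_const.sub (tst_dil h.1 hδ).1)) hδ fun t j => by
    rw [h.2.2 _ (by rw [abs_div, abs_of_pos hδ]; exact (div_le_one hδ).2 j.le), sub_self, mul_zero]

/-- profiles as Schwartz functions -/
abbrev S1 (φ : ℝ → ℝ) : 𝓢(ℝ, ℂ) := sch (cx φ)

lemma S1_coe (h : Tst φ) : (S1 φ : ℝ → ℂ) = cx φ := Api4.coe_sch (Api4.dc_cx h)

lemma fam_dil (h : Tst χ) : Fam (Ioi (0 : ℝ)) fun s => cx (dil s χ) := by
  obtain ⟨R, h0, hR⟩ := rad h
  refine ⟨isOpen_Ioi, Complex.ofRealCLM.contDiff.comp_contDiffOn (h.1.comp_contDiffOn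
    (contDiffOn_snd.div contDiffOn_fst fun q hq => hq.1.ne')), fun s hs =>
      ⟨Icc (-(R * (s + 1))) (R * (s + 1)), isCompact_Icc, ?_⟩⟩
  filter_upwards [Ioo_mem_nhds hs (lt_add_one s)] with r hr t ht
  rw [mem_Icc, ← abs_le, not_le] at ht
  simp only [cx, dil, Complex.ofReal_eq_zero]
  refine hR _ ?_
  rw [abs_div, abs_of_pos hr.1, le_div_iff₀ hr.1]
  nlinarith [hr.2]

variable {B : Type*} [NormedAddCommGroup B] [NormedSpace ℂ B] [CompleteSpace B]
  (Λ : 𝓢(ℝ, ℂ) →L[ℂ] B)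

lemma cont_dil (h : Tst χ) : ContinuousOn (fun s => Λ (S1 (dil s χ))) (Ioi 0) :=
  Λ.continuous.comp_continuousOn (fam_dil h).continuousOn

lemma ab_eq (h : Bump θ) (hR : ∀ t, R ≤ |t| → θ t = 0) (hδ : 0 < δ) (hε : δ ≤ ε) (k : R * δ ≤ ε)
    (σ t : ℝ) : ∫ s in δ..ε, s⁻¹ * dil s (ch σ θ) t = ab σ (dil ε θ) θ δ t := by
  have p : ∀ s ∈ uIcc δ ε, 0 < s := fun s hs => by
    rw [uIcc_of_le hε] at hs
    exact hδ.trans_le hs.1
  have q : ∀ s ∈ uIcc δ ε, (0 < σ * (t / s) ↔ 0 < σ * t) := fun s hs => by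
    rw [← mul_div_assoc, div_pos_iff_of_pos_right (p s hs)]
  by_cases i : 0 < σ * t
  · have d : ∀ s ∈ uIcc δ ε, HasDerivAt (fun s => θ (t / s))
        (s⁻¹ * (-(t / s) * deriv θ (t / s))) s := fun s hs => by
      have := ((h.1.1.differentiable (by simp)) (t / s)).hasDerivAt.comp s
        ((hasDerivAt_inv (p s hs).ne').const_mul t)
      refine HasDerivAt.congr_deriv this ?_
      rw [sq, mul_inv, div_eq_mul_inv]
      ring
    have c : ContinuousOn (fun s => s⁻¹ * (-(t / s) * deriv θ (t / s))) (uIcc δ ε) := by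
      have c1 := (h.1.1.continuous_deriv (by simp))
      have c2 : ContinuousOn (fun s => t / s) (uIcc δ ε) :=
        continuousOn_const.div continuousOn_id fun s hs => (p s hs).ne'
      exact (continuousOn_id.inv₀ fun s hs => (p s hs).ne').mul (c2.neg.mul (c1.comp_continuousOn c2))
    rw [intervalIntegral.integral_congr (g := fun s => s⁻¹ * (-(t / s) * deriv θ (t / s)))
      fun s hs => by simp only [dil, ch, if_pos ((q s hs).2 i)],
      intervalIntegral.integral_eq_sub_of_hasDerivAt d c.intervalIntegrable, ab, if_pos i, dil,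
      mul_sub, mul_one]
    by_cases j : θ (t / δ) = 0
    · rw [j, mul_zero]
    · have m : |t / δ| < R := lt_of_not_ge fun m => j (hR _ m)
      rw [abs_div, abs_of_pos hδ, div_lt_iff₀ hδ] at m
      rw [h.2.2 (t / ε), one_mul]
      rw [abs_div, abs_of_pos (hδ.trans_le hε), div_le_one (hδ.trans_le hε)]
      linarith
  · rw [intervalIntegral.integral_congr (g := fun _ => 0) fun s hs => by
      simp only [dil, ch, if_neg (mt (q s hs).1 i), mul_zero], ab, if_neg i]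
    simp

/-- **Plateaus are superpositions of dilates.** -/
theorem plat (hσ : σ = 1 ∨ σ = -1) (h : Bump θ) (hR : ∀ t, R ≤ |t| → θ t = 0) (hδ : 0 < δ)
    (hε : δ ≤ ε) (k : R * δ ≤ ε) :
    Λ (S1 (ab σ (dil ε θ) θ δ)) = ∫ s in δ..ε, ((s⁻¹ : ℝ) : ℂ) • Λ (S1 (dil s (ch σ θ))) := by
  have t := (sd_ch hσ h).1
  have p : uIcc δ ε ⊆ Ioi 0 := fun s hs => by
    rw [uIcc_of_le hε] at hs
    exact hδ.trans_le hs.1
  have f := (fam_dil t).mul_left (H := fun s _ => ((s⁻¹ : ℝ) : ℂ))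
    (Complex.ofRealCLM.contDiff.comp_contDiffOn (contDiffOn_fst.inv fun q hq => hq.1.ne'))
  have e : cx (ab σ (dil ε θ) θ δ) =
      fun t => ∫ s in δ..ε, ((s⁻¹ : ℝ) : ℂ) * cx (dil s (ch σ θ)) t := funext fun t => by
    simp only [cx, ← ab_eq h hR hδ hε k, ← Complex.ofReal_mul, intervalIntegral.integral_ofReal]
  rw [S1, e, (f.par_interval p Λ).2]
  exact intervalIntegral.integral_congr fun s hs => by
    simp only [Api4.sch_const_mul _ (Api4.dc_cx (tst_dil t (p hs))), map_smul]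

theorem plat_le (hσ : σ = 1 ∨ σ = -1) (h : Bump θ) (hR : ∀ t, R ≤ |t| → θ t = 0) (hδ : 0 < δ)
    (hε : δ ≤ ε) (k : R * δ ≤ ε) {C : ℝ}
    (hC : ∀ s ∈ Icc δ ε, ‖Λ (S1 (dil s (ch σ θ)))‖ ≤ C * √s) :
    ‖Λ (S1 (ab σ (dil ε θ) θ δ))‖ ≤ 2 * C * √ε := by
  have C0 : 0 ≤ C := nonneg_of_mul_nonneg_left ((norm_nonneg _).trans (hC δ ⟨le_rfl, hε⟩))
    (Real.sqrt_pos.2 hδ)
  have p : ∀ s ∈ uIcc δ ε, 0 < s := fun s hs => by
    rw [uIcc_of_le hε] at hs
    exact hδ.trans_le hs.1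
  have c : ContinuousOn (fun s => 2 * C * (1 / (2 * √s))) (uIcc δ ε) :=
    continuousOn_const.mul (continuousOn_const.div (by fun_prop) fun s hs =>
      (mul_pos two_pos (Real.sqrt_pos.2 (p s hs))).ne')
  rw [plat Λ hσ h hR hδ hε k]
  refine (intervalIntegral.norm_integral_le_of_norm_le hε (.of_forall fun s hs => ?_)
    c.intervalIntegrable).trans ?_
  · have s0 := hδ.trans hs.1
    have s1 := Real.sqrt_pos.2 s0
    rw [norm_smul, Complex.norm_real, Real.norm_of_nonneg (inv_pos.2 s0).le]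
    refine (mul_le_mul_of_nonneg_left (hC s ⟨hs.1.le, hs.2⟩) (inv_pos.2 s0).le).trans_eq ?_
    rw [← Real.mul_self_sqrt s0.le, Real.sqrt_mul_self s1.le]
    field_simp
  · rw [intervalIntegral.integral_eq_sub_of_hasDerivAt (f := fun s => 2 * C * √s)
      (fun s hs => (Real.hasDerivAt_sqrt (p s hs).ne').const_mul _) c.intervalIntegrable]
    exact sub_le_self _ (by positivity)

end

end Vale.Agent.P352X.Ib
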