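import Vale.Agent.P352X.Api3
import Vale.Agent.P352X.Api2b
import Vale.Agent.P352X.R.D1.ThA
import Vale.Agent.P352X.R.IB.Pl
import Vale.Agent.P352X.R.GRP

/-!
# P352X, row IB: norms of `Θ(g φ)`, `Tht(γ, φ)` and of their difference (helper83)
-/

set_option linter.all false

open MeasureTheory Filter Topology Set
open scoped SchwartzMap ComplexConjugate ContDiff Real

namespace Vale.Agent.P352X.Ib

open Vale.Agent.P352 Vale.Agent.P352.GF Vale.Agent.P352.BW Vale.Agent.P352.H246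
open Vale.Agent.P352.H496 Vale.Agent.P352.H755
open UniformSpace (Completion)
open Complex (I exp)
open Th (tc mF)

noncomputable section

/-- squares of `L^2` norms -/
def q2 {α : Type*} [MeasureSpace α] (f : α → ℂ) : ℝ := ∫ x, ‖f x‖ ^ 2

lemma q2_nonneg {α : Type*} [MeasureSpace α] (f : α → ℂ) : 0 ≤ q2 f :=
  integral_nonneg fun _ => sq_nonneg _

/-- the derivative -/
abbrev dS : 𝓢(ℝ, ℂ) →L[ℂ] 𝓢(ℝ, ℂ) := SchwartzMap.derivCLM ℂ ℂ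

lemma coe_dS (φ : 𝓢(ℝ, ℂ)) : ⇑(dS φ) = deriv φ := rfl

lemma int_sq {E : Type*} [NormedAddCommGroup E] [NormedSpace ℝ E] [FiniteDimensional ℝ E]
    [MeasureSpace E] [BorelSpace E] [(volume : Measure E).IsAddHaarMeasure] {f : E → ℂ}
    (h : Ap.Sw f) : Integrable fun x => ‖f x‖ ^ 2 := by
  obtain ⟨F, rfl⟩ := h
  exact Th.sq_int (F.memLp 2 volume)

lemma sw_ft1 (φ : 𝓢(ℝ, ℂ)) : Ap.Sw (ft1 φ) := ⟨_, coe_ft1S φ⟩
lemma sw_ft3 (g : 𝓢(P3, ℂ)) : Ap.Sw (ft3 g) := ⟨_, coe_ft3S g⟩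

lemma nrm_ft1 (φ : 𝓢(ℝ, ℂ)) (t : ℝ) : ‖(t : ℂ) * ft1 φ t‖ = ‖ft1 (dS φ) t‖ := by
  rw [coe_dS, ft1_deriv]
  simp

lemma half_le (φ : 𝓢(ℝ, ℂ)) (s : ℝ) {F : ℝ → ℂ} (e : ∀ t, 0 < t → ‖F t‖ ≤ ‖ft1 (dS φ) (t + s)‖) :
    ∫ t in Ioi (0 : ℝ), ‖F t‖ ^ 2 ≤ 2 * π * q2 (deriv φ) := by
  have i := (int_sq (sw_ft1 (dS φ))).comp_add_right s
  refine (integral_mono_of_nonneg (.of_forall fun _ => sq_nonneg _) i.integrableOn
    ((ae_restrict_mem measurableSet_Ioi).mono fun t ht =>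
      pow_le_pow_left₀ (norm_nonneg _) (e t ht) 2)).trans
    ((setIntegral_le_integral i (.of_forall fun _ => sq_nonneg _)).trans_eq ?_)
  rw [integral_add_right_eq_self (fun t => ‖ft1 (dS φ) t‖ ^ 2) s, ft1_plancherel_norm]
  rfl

lemma shift_le (φ : 𝓢(ℝ, ℂ)) {s : ℝ} (hs : 0 ≤ s) :
    ∫ t in Ioi (0 : ℝ), ‖(t : ℂ) * ft1 φ (t + s)‖ ^ 2 ≤ 2 * π * q2 (deriv φ) :=
  half_le φ s fun t ht => by
    rw [← nrm_ft1, norm_mul, norm_mul, Complex.norm_real, Complex.norm_real,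
      Real.norm_of_nonneg ht.le, Real.norm_of_nonneg (by linarith)]
    gcongr
    linarith

lemma sw_t {f : ℝ → ℂ} (h : Ap.Sw f) : Ap.Sw fun t : ℝ => (t : ℂ) * f t :=
  Ap.sw_rmul (u := fun t => t) .id' h

lemma diff_le (φ : 𝓢(ℝ, ℂ)) {s : ℝ} (hs : 0 ≤ s) :
    ∫ t in Ioi (0 : ℝ), ‖(t : ℂ) * (ft1 φ (t + s) - ft1 φ t)‖ ^ 2 ≤
      4 * π * s ^ 2 * (q2 (fun t : ℝ => (t : ℂ) * deriv φ t) + q2 φ) := by
  set l : ℝ →L[ℝ] ℝ := ContinuousLinearMap.mul ℝ ℝ s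
  set η := ST.mdl l φ - φ
  have e : ∀ x, η x = exp (I * (s * x : ℝ)) * φ x - φ x := fun x => by
    simp [η, ST.mdl_apply, ST.pw, l]
  have e1 : ∀ t, ft1 η t = ft1 φ (t + s) - ft1 φ t := fun t => by
    have := FT.gft_mdl (B := FT.d1.B) φ s t
    rw [← ft1_eq] at this
    rw [← this, funext e]
    exact ft1_sub ((ST.mdl l φ).integrable.congr (.of_forall fun x => by
      simp [ST.mdl_apply, ST.pw, l])) φ.integrable t
  have d : ∀ x, ‖deriv η x‖ ^ 2 ≤ 2 * s ^ 2 * (‖(x : ℂ) * deriv φ x‖ ^ 2 + ‖φ x‖ ^ 2) := fun x => by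
    have h1 := (φ.differentiable x).hasDerivAt
    have h2 : HasDerivAt (fun x : ℝ => exp (I * (s * x : ℝ))) (exp (I * (s * x : ℝ)) * (I * s)) x := by
      simpa using (((hasDerivAt_id x).const_mul s).ofReal_comp.const_mul I).cexp
    have h3 : deriv η x = (exp (I * (s * x : ℝ)) - 1) * deriv φ x +
        exp (I * (s * x : ℝ)) * (I * s) * φ x := by
      rw [funext e, ((h2.fun_mul h1).fun_sub h1).deriv]
      ring
    have h4 : ‖deriv η x‖ ≤ s * ‖(x : ℂ) * deriv φ x‖ + s * ‖φ x‖ := by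
      rw [h3]
      refine (norm_add_le _ _).trans (add_le_add ?_ (le_of_eq ?_))
      · rw [norm_mul, norm_mul, ← mul_assoc]
        gcongr
        simpa [abs_of_nonneg hs] using Real.norm_exp_I_mul_ofReal_sub_one_le (x := s * x)
      · rw [norm_mul, norm_mul, FT.norm_exp]
        simp [abs_of_nonneg hs]
    nlinarith [pow_le_pow_left₀ (norm_nonneg _) h4 2,
      sq_nonneg (s * ‖(x : ℂ) * deriv φ x‖ - s * ‖φ x‖)]
  have i1 := int_sq (sw_t (Ap.sw_coe (dS φ)))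
  have i2 := int_sq (Ap.sw_coe φ)
  refine (half_le η 0 fun t _ => by rw [add_zero, ← nrm_ft1, e1]).trans ?_
  have := integral_mono (int_sq (Ap.sw_coe (dS η))) ((i1.add i2).const_mul (2 * s ^ 2)) d
  simp only [Pi.add_apply, integral_const_mul, integral_add i1 i2] at this
  refine (mul_le_mul_of_nonneg_left this (by positivity)).trans_eq ?_
  simp only [q2, coe_dS]
  ring

variable {D : Type*} [NormedAddCommGroup D] [InnerProductSpace ℂ D] {c : Ctx D}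
  {ell : (V → ℂ) → Completion D} {c0 : ℝ}

/-- `Tht` for complex profiles -/
def Ttc (ell : (V → ℂ) → Completion D) (γ : P3 → ℂ) (φ : ℝ → ℂ) : Completion D :=
  (-3 : ℂ) • ell fun p => (mu p : ℝ) * γ (pm p) * ft1 φ (mu p / (2 * be p))

lemma Tht_eq (γ : P3 → ℂ) (φ : ℝ → ℝ) : Tht ell γ φ = Ttc ell γ (cx φ) := rfl

lemma mem_tt {γ : P3 → ℂ} (hγ : MemLp γ 2 m3) (φ : 𝓢(ℝ, ℂ)) :
    MemLp (fun p => ((mu p : ℝ) : ℂ) * γ (pm p) * ft1 φ (mu p / (2 * be p))) 2 mF :=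
  memLp_Tht hγ (memLp_mul_ft1 φ _)

lemma test_pf (g : 𝓢(P3, ℂ)) (φ : 𝓢(ℝ, ℂ)) : IsTest (pf g φ) := ⟨Api4.tenE plE g φ, rfl⟩

lemma int_m3 {γ : P3 → ℂ} (hγ : MemLp γ 2 m3) :
    IntegrableOn (fun k : P3 => k.1 ^ 2 * ‖γ k‖ ^ 2) Pp := integrable_m3.1 (Th.sq_int hγ)

variable (h : Ell c ell c0)
include h

lemma ell_le {ψ : V → ℂ} (hψ : MemLp ψ 2 mF) {b : P3 → ℝ} (hb : IntegrableOn b Pp) {C : ℝ}
    (e : ∀ k : P3, 0 < k.1 → ∫ t in Ioi (0 : ℝ), ‖ψ (pc k t)‖ ^ 2 ≤ b k * C) :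
    ‖(-3 : ℂ) • ell ψ‖ ^ 2 ≤ 9 * c0 * (∫ k in Pp, b k) * C := by
  rw [norm_smul, mul_pow, Th.ell_sq h hψ, integral_Fc (Th.sq_int hψ), mul_assoc, mul_assoc,
    ← integral_mul_const]
  refine mul_le_mul (by norm_num) (mul_le_mul_of_nonneg_left (integral_mono_of_nonneg
    (.of_forall fun _ => integral_nonneg fun _ => sq_nonneg _) (hb.mul_const C)
    ((ae_restrict_mem meas_Pp).mono e)) h.nonneg) (mul_nonneg h.nonneg (integral_nonneg fun _ =>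
      integral_nonneg fun _ => sq_nonneg _)) (by norm_num)

lemma tt_sq {γ : P3 → ℂ} (hγ : MemLp γ 2 m3) (φ : 𝓢(ℝ, ℂ)) :
    ‖Ttc ell γ φ‖ ^ 2 ≤ 9 * c0 * (∫ k, ‖γ k‖ ^ 2 ∂m3) * (8 * π * q2 (deriv φ)) := by
  rw [integral_m3]
  refine ell_le h (mem_tt hγ φ) (int_m3 hγ) fun k hk => ?_
  have := mul_le_mul_of_nonneg_left (shift_le φ le_rfl)
    (show 0 ≤ 4 * (k.1 ^ 2 * ‖γ k‖ ^ 2) by positivity)
  rw [← integral_const_mul] at this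
  refine (le_of_eq (integral_congr_ae (.of_forall fun t => ?_))).trans (this.trans_eq (by ring))
  simp only [be_pc, pm_pc, mu_pc' _ hk.ne']
  simp [mu_pc _ hk.ne', mul_pow]
  ring

lemma th_eq (g : 𝓢(P3, ℂ)) (φ : 𝓢(ℝ, ℂ)) :
    c.Th (pf g φ) = (-3 : ℂ) • ell fun p => (mu p : ℝ) * ft (pf g φ) p := h.th _ (test_pf g φ)

lemma th_sq (g : 𝓢(P3, ℂ)) (φ : 𝓢(ℝ, ℂ)) :
    ‖c.Th (pf g φ)‖ ^ 2 ≤ 9 * c0 * (∫ k, ‖ft3 g k‖ ^ 2 ∂m3) * (8 * π * q2 (deriv φ)) := by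
  rw [integral_m3, th_eq h]
  refine ell_le h (memLp_mu_ft (test_pf g φ) _) (int_m3 (memLp_ft3_m3 g)) fun k hk => ?_
  have := mul_le_mul_of_nonneg_left (shift_le φ (Th.sh_nonneg hk))
    (show 0 ≤ 4 * (k.1 ^ 2 * ‖ft3 g k‖ ^ 2) by positivity)
  rw [← integral_const_mul] at this
  refine (le_of_eq (integral_congr_ae (.of_forall fun t => ?_))).trans (this.trans_eq (by ring))
  simp [ft_pf, mu_pc _ hk.ne', mul_pow, Th.sh]
  ring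

lemma dt_sq (g : 𝓢(P3, ℂ)) : ∃ C : ℝ, 0 ≤ C ∧ ∀ φ : 𝓢(ℝ, ℂ),
    ‖c.Th (pf g φ) - Ttc ell (ft3 g) φ‖ ^ 2 ≤
      C * (q2 (fun t : ℝ => (t : ℂ) * deriv φ t) + q2 φ) := by
  have i := int_sq (Ap.sw_rmul (u := fun k : P3 => d2 k.2 k.2) (by fun_prop) (sw_ft3 g))
  refine ⟨9 * c0 * (∫ k in Pp, ‖(d2 k.2 k.2 : ℂ) * ft3 g k‖ ^ 2) * (4 * π), mul_nonneg (mul_nonneg
    (mul_nonneg (by norm_num) h.nonneg) (integral_nonneg fun _ => sq_nonneg _)) (by positivity),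
    fun φ => ?_⟩
  have m1 := memLp_mu_ft (test_pf g φ) Fc
  have m2 := mem_tt (memLp_ft3_m3 g) φ
  rw [th_eq h, Ttc, ← smul_sub, ← Th.ell_sub h m1 m2, mul_assoc _ (4 * π)]
  refine ell_le h (m1.sub m2) i.integrableOn fun k hk => ?_
  have := mul_le_mul_of_nonneg_left (diff_le φ (Th.sh_nonneg hk))
    (show 0 ≤ 4 * (k.1 ^ 2 * ‖ft3 g k‖ ^ 2) by positivity)
  rw [← integral_const_mul] at this
  refine (le_of_eq (integral_congr_ae (.of_forall fun t => ?_))).trans (this.trans_eq ?_)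
  · simp only [Pi.sub_apply, be_pc, pm_pc, mu_pc' _ hk.ne', ft_pf, al_pc, mul_assoc, ← mul_sub]
    simp [mu_pc _ hk.ne', mul_pow, Th.sh]
    ring
  · simp only [Th.sh, norm_mul, mul_pow, Complex.norm_real, Real.norm_eq_abs, sq_abs]
    field_simp
    ring

omit h in
lemma cont_q2 : Continuous fun φ : 𝓢(ℝ, ℂ) => q2 φ := by
  have : ∀ φ : 𝓢(ℝ, ℂ), q2 φ = ‖SchwartzMap.toLpCLM ℂ ℂ 2 volume φ‖ ^ 2 := fun φ => by
    rw [SchwartzMap.toLpCLM_apply, ← inner_self_eq_norm_sq (𝕜 := ℂ),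
      SchwartzMap.inner_toL2_toL2_eq φ φ volume, q2]
    simp only [inner_self_eq_norm_sq_to_K, ← Complex.ofReal_pow, Complex.coe_algebraMap,
      integral_complex_ofReal]
    rfl
  simp only [this]
  fun_prop

/-- `φ ↦ Tht(γ, φ)` -/
def TtL {γ : P3 → ℂ} (hγ : MemLp γ 2 m3) : 𝓢(ℝ, ℂ) →L[ℂ] Completion D :=
  let L : 𝓢(ℝ, ℂ) →ₗ[ℂ] Completion D :=
    { toFun := fun φ => Ttc ell γ φ
      map_add' := fun φ ψ => by
        rw [Ttc, Ttc, Ttc, ← smul_add, ← Th.ell_add h (mem_tt hγ φ) (mem_tt hγ ψ)]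
        simp only [← mul_add, ← ft1_add φ.integrable ψ.integrable]
        rfl
      map_smul' := fun a φ => by
        rw [Ttc, Ttc, RingHom.id_apply, smul_comm a, ← Th.ell_smul h a (mem_tt hγ φ)]
        simp only [mul_left_comm a, ← ft1_mul]
        rfl }
  ⟨L, continuous_of_continuousAt_zero L (by
    rw [ContinuousAt, map_zero, tendsto_zero_iff_norm_tendsto_zero]
    have := ((((cont_q2.comp dS.continuous).const_mul (8 * π)).const_mul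
      (9 * c0 * ∫ k, ‖γ k‖ ^ 2 ∂m3)).sqrt.tendsto 0)
    refine squeeze_zero (fun _ => norm_nonneg _) (fun φ => Real.le_sqrt_of_sq_le (tt_sq h hγ φ))
      (this.trans_eq ?_)
    simp [q2])⟩

lemma TtL_apply {γ : P3 → ℂ} (hγ : MemLp γ 2 m3) (φ : 𝓢(ℝ, ℂ)) : TtL h hγ φ = Ttc ell γ φ := rfl

lemma TtL_S1 {γ : P3 → ℂ} (hγ : MemLp γ 2 m3) {φ : ℝ → ℝ} (hφ : Tst φ) :
    TtL h hγ (S1 φ) = Tht ell γ φ := by rw [TtL_apply, S1_coe hφ, Tht_eq]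

omit h

variable (c) in
/-- `f ↦ Θ(f) Ω` -/
def thC : Sch →L[ℂ] Completion D :=
  Completion.toComplL ∘L ∑ m, (eta m : ℂ) • Grp.fC (Grp.T_fld c.hT m m) c.Q.vac

lemma thC_apply (f : Sch) : thC c f = c.Th (ev f) := by
  simp only [thC, ContinuousLinearMap.comp_apply, ContinuousLinearMap.sum_apply,
    ContinuousLinearMap.smul_apply]
  rfl

lemma thC_sch {f : Fn} (hf : IsTest f) : thC c (sch f) = c.Th f := by
  rw [thC_apply, Ap.ev_sch hf]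

lemma th_add {f g : Fn} (hf : IsTest f) (hg : IsTest g) :
    c.Th (fun z => f z + g z) = c.Th f + c.Th g := by
  rw [← thC_sch (Ap.sw_add hf hg), Ap.sch_add hf hg, map_add, thC_sch hf, thC_sch hg]

lemma th_smul (a : ℂ) {f : Fn} (hf : IsTest f) : c.Th (fun z => a * f z) = a • c.Th f := by
  rw [← thC_sch (Ap.sw_cmul a hf), Ap.sch_cmul a hf, map_smul, thC_sch hf]

variable (c) in
/-- `φ ↦ Θ(g φ) Ω` -/
def ThL (g : P3 → ℝ) : 𝓢(ℝ, ℂ) →L[ℂ] Completion D := thC c ∘L Api4.tenE plE (sch (cx g))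

lemma pr_sch {g : P3 → ℝ} {φ : ℝ → ℝ} (hg : Tst g) (hφ : Tst φ) :
    pr g φ = pf (sch (cx g)) (S1 φ) := by
  rw [S1_coe hφ, Api4.coe_sch (Api4.dc_cx hg), pr_eq]

lemma test_pr {g : P3 → ℝ} {φ : ℝ → ℝ} (hg : Tst g) (hφ : Tst φ) : IsTest (pr g φ) :=
  pr_sch hg hφ ▸ test_pf _ _

lemma ThL_S1 {g : P3 → ℝ} {φ : ℝ → ℝ} (hg : Tst g) (hφ : Tst φ) :
    ThL c g (S1 φ) = c.Th (pr g φ) := by
  rw [pr_sch hg hφ]
  exact thC_apply _

lemma mem_ft3 {g : P3 → ℝ} (hg : Tst g) : MemLp (ft3 (cx g)) 2 m3 :=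
  Api4.coe_sch (Api4.dc_cx hg) ▸ memLp_ft3_m3 (sch (cx g))

/-! ### dilates -/

lemma q2_dil {s : ℝ} (hs : 0 < s) (a : ℝ) (f : ℝ → ℂ) :
    q2 (fun t => (a : ℂ) * f (t / s)) = a ^ 2 * s * q2 f := by
  simp only [q2, norm_mul, mul_pow, integral_const_mul, Complex.norm_real, Real.norm_eq_abs, sq_abs]
  rw [Measure.integral_comp_div (fun t => ‖f t‖ ^ 2) s, abs_of_pos hs, smul_eq_mul, mul_assoc]

lemma deriv_dil {s : ℝ} (φ : ℝ → ℝ) :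
    deriv (cx (dil s φ)) = fun t => ((s⁻¹ : ℝ) : ℂ) * deriv (cx φ) (t / s) := funext fun t => by
  have := deriv_comp_mul_left s⁻¹ (cx φ) t
  simp only [← div_eq_inv_mul, Complex.real_smul] at this
  exact this

include h

/-- `|Θ(g χ_s) - Tht(g^, χ_s)| ≤ C sqrt s` -/
theorem dt_dil {g : P3 → ℝ} {χ : ℝ → ℝ} (hg : Tst g) (hχ : Tst χ) : ∃ C : ℝ, 0 ≤ C ∧ ∀ s, 0 < s →
    ‖c.Th (pr g (dil s χ)) - Tht ell (ft3 (cx g)) (dil s χ)‖ ≤ C * √s := by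
  obtain ⟨C, h0, hC⟩ := dt_sq h (sch (cx g))
  refine ⟨√(C * (q2 (fun t : ℝ => (t : ℂ) * deriv (cx χ) t) + q2 (cx χ))), Real.sqrt_nonneg _,
    fun s hs => ?_⟩
  have := hC (S1 (dil s χ))
  rw [← pr_sch hg (tst_dil hχ hs), S1_coe (tst_dil hχ hs), Api4.coe_sch (Api4.dc_cx hg),
    ← Tht_eq] at this
  rw [← Real.sqrt_mul' _ hs.le]
  refine Real.le_sqrt_of_sq_le (this.trans_eq ?_)
  have e1 := q2_dil hs 1 fun t : ℝ => (t : ℂ) * deriv (cx χ) t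
  have e2 := q2_dil hs 1 (cx χ)
  simp only [Complex.ofReal_one, one_mul, one_pow] at e1 e2
  rw [mul_assoc, mul_comm _ s, mul_add s, ← e1, ← e2, deriv_dil]
  congr 3
  funext t
  push_cast
  ring

/-- `|Θ(g χ_s)| ≤ C / sqrt s` -/
theorem th_dil {g : P3 → ℝ} {χ : ℝ → ℝ} (hg : Tst g) (hχ : Tst χ) : ∃ C : ℝ, 0 ≤ C ∧ ∀ s, 0 < s →
    ‖c.Th (pr g (dil s χ))‖ ≤ C / √s := by
  refine ⟨√(9 * c0 * (∫ k, ‖ft3 (cx g) k‖ ^ 2 ∂m3) * (8 * π * q2 (deriv (cx χ)))),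
    Real.sqrt_nonneg _, fun s hs => ?_⟩
  have := th_sq h (sch (cx g)) (S1 (dil s χ))
  rw [← pr_sch hg (tst_dil hχ hs), S1_coe (tst_dil hχ hs), Api4.coe_sch (Api4.dc_cx hg), deriv_dil,
    q2_dil hs] at this
  rw [← Real.sqrt_div' _ hs.le]
  refine Real.le_sqrt_of_sq_le (this.trans_eq ?_)
  field_simp

/-- `|Θ(g t χ_s)| ≤ C sqrt s` -/
theorem th_tdil {g : P3 → ℝ} {χ : ℝ → ℝ} (hg : Tst g) (hχ : Tst χ) : ∃ C : ℝ, 0 ≤ C ∧ ∀ s, 0 < s →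
    ‖c.Th (pr g fun t => t * dil s χ t)‖ ≤ C * √s := by
  have t : Tst fun t => t * χ t := Ap.cs_mul_l contDiff_id hχ
  obtain ⟨C, h0, hC⟩ := th_dil h hg t
  refine ⟨C, h0, fun s hs => ?_⟩
  have e : (pr g fun t => t * dil s χ t) = fun z => (s : ℂ) * pr g (dil s fun t => t * χ t) z := by
    funext z
    simp only [pr, dil, ← Complex.ofReal_mul]
    congr 1
    field_simp
  rw [e, th_smul _ (test_pr hg (tst_dil t hs)), norm_smul, Complex.norm_real,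
    Real.norm_of_nonneg hs.le]
  refine (mul_le_mul_of_nonneg_left (hC s hs) hs.le).trans_eq ?_
  rw [mul_div_left_comm, Real.div_sqrt]

end

end Vale.Agent.P352X.Ib
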