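import Vale.Agent.P352X.R.IB.Dt
import Vale.Agent.P352X.Api1C
import Vale.Agent.P352X.R.FAR

/-!
# P352X, row IB: `Kt` on the vectors `Θ(g χ_s) Ω` (helper83)
-/

set_option linter.all false

open MeasureTheory Filter Topology Set Metric
open scoped SchwartzMap ComplexConjugate ContDiff Real

namespace Vale.Agent.P352X.Ib

open Vale.Agent.P352 Vale.Agent.P352.GF Vale.Agent.P352.BW Vale.Agent.P352.H246
open Vale.Agent.P352.H496 Vale.Agent.P352.H755
open UniformSpace (Completion)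
open Complex (I exp)
open Api4 (Fam)

noncomputable section

variable {D : Type*} [NormedAddCommGroup D] [InnerProductSpace ℂ D] {c : Ctx D} {f : Fn}
  {g : P3 → ℝ} {χ φ : ℝ → ℝ}

lemma ug_th (G : GRP c) {s : ℝ} {L : Ix → V} (a : V) (hs : 0 < s) (hL : IsLor L) (hf : IsTest f) :
    Ug c.Q s L a (c.Th fun x => f (sim s L a x)) = c.Th f := by
  rw [Ctx.Th, G.coe _ _ _ _ hs hL, G.th _ _ _ _ _ hs hL hf, c.Q.U_vac _ _ _ hs hL, Ctx.Th]

lemma ut_th (G : GRP c) (y : V) (hf : IsTest f) : Ut c.Q y (c.Th fun x => f (x + y)) = c.Th f := by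
  simpa only [sim_ut, Ut] using ug_th G y one_pos H496.isLor_one hf

lemma sc_th (G : GRP c) {r s : ℝ} (hr : 0 < r) (hs : 0 < s) (hf : IsTest f) :
    Usc c.Q r s (c.Th fun x => f (scp r s x)) = c.Th f := by
  simpa only [(G.lsc r s hr hs).2, Usc] using
    ug_th G 0 (Real.sqrt_pos.2 (mul_pos hr hs)) (G.lsc r s hr hs).1 hf

lemma th_trace (G : GRP c) (hf : IsTest f) :
    c.Th f = (2 : ℂ) • c.Tv (hk va vb f) - ∑ i, c.Tv (hk (ex i) (ex i) f) := by
  rw [Ctx.Th, G.trace f _ hf, ← Completion.coe_toComplL (𝕜 := ℂ), map_sub, map_smul, map_sum]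
  rfl

lemma th_perp (G : GRP c) (hf : IsTest f) : inner ℂ c.Om (c.Th f) = 0 := by
  simp only [th_trace G hf, inner_sub_right, inner_smul_right, inner_sum, Far.perp_Tv G _ _ hf,
    mul_zero, Finset.sum_const_zero, sub_zero]

/-- `K` on `Θ(f) Ω` for `f` supported in a slab -/
theorem slab_th (G : GRP c) (K : KD c) {b1 b2 : ℝ} (hb : b2 < 0 ∨ 0 < b1) :
    ∃ (m : ℕ) (C : ℝ), ∀ f : Sch, tsupport f ⊆ {z | b1 ≤ be z ∧ be z ≤ b2} →
      Dm c.SK (thC c f) ∧ ‖gen c.SK (thC c f)‖ ≤ C * sn m f := by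
  obtain ⟨m, C, h⟩ := K.slab b1 b2 hb
  refine ⟨m, 2 * (C * ‖va‖ * ‖vb‖) + ∑ i, C * ‖ex i‖ * ‖ex i‖, fun f hf => ?_⟩
  have k := ((h va vb f hf).1.gn.smul 2).sub
    (Gn.sum Finset.univ fun i _ => (h (ex i) (ex i) f hf).1.gn)
  rw [thC_apply, th_trace G ⟨f, rfl⟩, k.gen_eq, add_mul, Finset.sum_mul, mul_assoc]
  refine ⟨k.dm, (norm_sub_le _ _).trans (add_le_add ?_ ((norm_sum_le _ _).trans
    (Finset.sum_le_sum fun i _ => (h _ _ f hf).2.2.1)))⟩
  rw [norm_smul, Complex.norm_two]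
  exact mul_le_mul_of_nonneg_left (h _ _ f hf).2.2.1 zero_le_two

lemma dm_pr (G : GRP c) (K : KD c) (hg : Tst g) (hφ : Sd φ) : Dm c.SK (c.Th (pr g φ)) := by
  obtain ⟨h0, b1, b2, h1, h2⟩ := hφ
  obtain ⟨m, C, h⟩ := slab_th G K h1
  rw [← thC_sch (test_pr hg h0)]
  refine (h _ ?_).1
  rw [Ap.tsupport_sch (test_pr hg h0)]
  exact fun z hz => h2 (Far.tsupport_pr g φ hz).2

/-- the cells -/
def cel (g : P3 → ℝ) (χ : ℝ → ℝ) (ρ : R2 → ℝ) (q : P3) (z : V) : ℂ :=
  ((g (al z, q.2 + q.1 • tx z) * χ (be z) * ρ (tx z) : ℝ) : ℂ)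

lemma fam_cel (hg : Tst g) (hχ : Tst χ) {ρ : R2 → ℝ} (hρ : Tst ρ) : Fam univ (cel g χ ρ) := by
  refine Api4.fam_of_compact isOpen_univ (Ap.smooth_cx (((hg.1.comp ?_).mul (hχ.1.comp ?_)).mul
    (hρ.1.comp ?_))).contDiffOn (plE.toHomeomorph.isCompact_preimage.2
      (((hg.2.isCompact.image continuous_fst).prod hρ.2.isCompact).prod hχ.2.isCompact))
    fun q _ z hz => by_contra fun k => hz ?_
  · fun_prop
  · fun_prop
  · fun_prop
  · simp only [cel, Complex.ofReal_eq_zero, mul_eq_zero, not_or] at k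
    exact ⟨⟨⟨_, subset_tsupport _ k.1.1, rfl⟩, subset_tsupport _ k.2⟩, subset_tsupport _ k.1.2⟩

/-- **Cells.** -/
theorem cell (G : GRP c) (K : KD c) (T : KT c) (hg : Tst g) (hχ : Sd χ) : ∃ C : ℝ, 0 ≤ C ∧
    ∀ s, 0 < s → s ≤ 1 → ‖gen c.Sk (c.Th (pr g (dil s χ)))‖ ≤ C := by
  obtain ⟨h0, b1, b2, h1, h2⟩ := hχ
  obtain ⟨m, C, h⟩ := slab_th G K h1
  obtain ⟨ρ, hρ, sρ, -, iρ⟩ := Ap.ex_rho (volume : Measure R2) (closedBall_mem_nhds 0 one_pos)
  obtain ⟨R, hR⟩ := hg.2.isCompact.isBounded.subset_closedBall 0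
  have F := fam_cel hg h0 hρ
  obtain ⟨A, hA⟩ := F.bdd ((isCompact_Icc (a := (0 : ℝ)) (b := 1)).prod
    (isCompact_closedBall (0 : R2) (R + 1))) (subset_univ _) m
  set B : R2 → ℝ := (closedBall 0 (R + 1)).indicator fun _ => |C| * |A|
  have iB : Integrable B := (integrableOn_const (measure_closedBall_lt_top).ne).integrable_indicator
    measurableSet_closedBall
  have B0 : 0 ≤ B := fun y => indicator_nonneg (fun _ _ => by positivity) y
  have key : ∀ q : P3, q.1 ∈ Icc (0 : ℝ) 1 → Dm c.Sk (thC c (sch (cel g χ ρ q))) ∧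
      ‖gen c.Sk (thC c (sch (cel g χ ρ q)))‖ ≤ B q.2 := fun q hq => by
    obtain ⟨a, b⟩ := h (sch (cel g χ ρ q)) (by
      rw [Api4.tsupport_sch (F.dc (mem_univ q))]
      refine Ap.tsupp_sub (isClosed_Icc.preimage cont_be) fun z k => h2 (subset_tsupport _ fun j => k ?_)
      simp [cel, j])
    refine ⟨((T.dom _).1 a).1, ?_⟩
    by_cases k : q.2 ∈ closedBall 0 (R + 1)
    · refine ((T.split _ a).2.trans b).trans ?_
      rw [show B q.2 = _ from indicator_of_mem k _]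
      exact mul_le_mul (le_abs_self _) ((hA q ⟨hq, k⟩).trans (le_abs_self _)) (Lie.sn_nonneg _ _)
        (abs_nonneg _)
    · have : cel g χ ρ q = fun _ => 0 := funext fun z => by_contra fun j => k (by
        simp only [cel, Complex.ofReal_eq_zero, mul_eq_zero, not_or] at j
        have j1 := (norm_snd_le _).trans (mem_closedBall_zero_iff.1 (hR (subset_tsupport _ j.1.1)))
        have j2 := mem_closedBall_zero_iff.1 (sρ (subset_tsupport _ j.2))
        have j3 := norm_sub_le (q.2 + q.1 • tx z) (q.1 • tx z)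
        rw [add_sub_cancel_right, norm_smul, Real.norm_of_nonneg hq.1] at j3
        exact mem_closedBall_zero_iff.2 (j3.trans (add_le_add j1
          (mul_le_one₀ hq.2 (norm_nonneg _) j2))))
      rw [this, Ap.sch_zero, map_zero, gen_zero, norm_zero]
      exact B0 _
  refine ⟨∫ y, B y, integral_nonneg B0, fun s hs hs1 => ?_⟩
  have l0 := Real.sqrt_pos.2 hs
  have tf := test_pr hg (tst_dil h0 hs)
  have e1 : (fun z => pr g (dil s χ) (scp 1 s z)) =
      fun z => ∫ y : R2, cel g χ ρ (√s, √s • y) (z - tv y) := funext fun z => by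
    simp only [cel, al_sub, be_sub, tx_sub, al_tv, be_tv, tx_tv, sub_zero, ← smul_add,
      add_sub_cancel, integral_complex_ofReal, integral_const_mul, integral_sub_left_eq_self ρ, iρ]
    simp [pr, pl, dil, hs.ne']
  have d : Dc fun q : R2 × V => cel g χ ρ (√s, √s • q.1) (q.2 - tv q.1) := by
    have d1 : Dc fun z => pr g (dil s χ) (scp 1 s z) := Ap.cs_hom (conf_scp one_pos hs).cle.toHomeomorph
      (conf_scp one_pos hs).cle.contDiff (Far.dc_pr hg (tst_dil h0 hs))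
    have d2 := Api4.dc_comp_cle (Api4.dc_tens (Api4.dc_cx hρ) d1)
      (ContinuousLinearEquiv.equivOfInverse
        ((txL ∘L .snd ℝ R2 V - .fst ℝ R2 V).prod (.snd ℝ R2 V))
        ((txL ∘L .snd ℝ R2 V - .fst ℝ R2 V).prod (.snd ℝ R2 V)) (fun _ => by simp) fun _ => by simp)
    convert d2 using 2 with q
    simp [cel, pr, pl, dil, hs.ne', cx, ← smul_add, mul_comm]
  obtain ⟨-, i1, e2⟩ := Api4.par volume d (thC c)
  obtain ⟨a, b⟩ := T.ugk.integral_bdd i1 (iB.comp_smul l0.ne') (.of_forall fun y => by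
    have t := Far.isTest_dc (Api4.dc_slice d y)
    obtain ⟨a, b⟩ := key (√s, √s • y) ⟨l0.le, Real.sqrt_le_one.2 hs1⟩
    rw [thC_sch t, ← ut_th G (tv y) t]
    simp only [add_sub_cancel_right]
    rw [← thC_sch (Far.isTest_dc (F.dc (mem_univ _)))]
    obtain ⟨a', b'⟩ := a.comm fun t => T.ut t (tv y) (be_tv y)
    exact ⟨a', by rw [b', Ut, G.ug_norm]; exact b⟩)
  rw [← e2, ← e1, thC_sch (Ap.test_conf0 (conf_scp one_pos hs) tf)] at a b
  rw [← sc_th G one_pos hs tf, (a.gn.scale (Usc c.Q 1 s) s fun t => ?_).gen_eq, norm_smul, Usc,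
    G.ug_norm, Real.norm_of_nonneg hs.le]
  · refine (mul_le_mul_of_nonneg_left b hs.le).trans_eq ?_
    rw [Measure.integral_comp_smul]
    simp [Real.sq_sqrt hs.le, abs_of_pos hs, hs.ne']
  · have := DFunLike.congr_fun (T.sc 1 s (s * t) one_pos hs)
    simp only [mul_div_cancel_left₀ t hs.ne'] at this
    exact (this _).symm

end

end Vale.Agent.P352X.Ib
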