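import Vale.Agent.P352X.R.IB.K0

/-!
# P352X, row IB: the limits of the single faces (helper83)
-/

set_option linter.all false

open MeasureTheory Filter Topology Set
open scoped SchwartzMap ComplexConjugate ContDiff Real

namespace Vale.Agent.P352X.Ib

open Vale.Agent.P352 Vale.Agent.P352.GF Vale.Agent.P352.BW Vale.Agent.P352.H246
open Vale.Agent.P352.H496 Vale.Agent.P352.H755
open UniformSpace (Completion)
open Complex (I exp)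

noncomputable section

/-- first `δ → 0`, then `ε → 0` -/
abbrev LL : Filter (ℝ × ℝ) := (𝓝[>] (0 : ℝ)).curry (𝓝[>] (0 : ℝ))

lemma ev_LL (R : ℝ) : ∀ᶠ p in LL, 0 < p.2 ∧ p.2 ≤ p.1 ∧ R * p.2 ≤ p.1 ∧ p.1 ≤ 1 := by
  refine eventually_curry_iff.2 ?_
  filter_upwards [Ioc_mem_nhdsGT one_pos] with ε hε
  have : Tendsto (fun δ : ℝ => R * δ) (𝓝[>] 0) (𝓝 (R * 0)) :=
    (tendsto_nhdsWithin_of_tendsto_nhds tendsto_id).const_mul R
  filter_upwards [Ioc_mem_nhdsGT hε.1, this.eventually_le_const (by simpa using hε.1)] with δ a b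
  exact ⟨a.1, a.2, b, hε.2⟩

lemma to0 {E : Type*} [NormedAddCommGroup E] {F : ℝ × ℝ → E} {C : ℝ}
    (h : ∀ᶠ p in LL, ‖F p‖ ≤ C * √p.1) : Tendsto F LL (𝓝 0) := by
  have : Tendsto (fun ε : ℝ => C * √ε) (𝓝[>] 0) (𝓝 0) := tendsto_nhdsWithin_of_tendsto_nhds
    ((by fun_prop : Continuous fun ε : ℝ => C * √ε).tendsto' _ _ (by simp))
  exact squeeze_zero_norm' h ((this.comp tendsto_fst).mono_left curry_le_prod)

lemma ratio : Tendsto (fun p : ℝ × ℝ => p.2 / p.1) LL (𝓝[>] 0) := by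
  refine tendsto_nhdsWithin_iff.2 ⟨Tendsto.curry (f := fun ε δ : ℝ => δ / ε) (.of_forall fun ε => ?_),
    (ev_LL 0).mono fun p h => div_pos h.1 (h.1.trans_le h.2.1)⟩
  exact tendsto_nhdsWithin_of_tendsto_nhds
    ((by fun_prop : Continuous fun δ : ℝ => δ / ε).tendsto' _ _ (by simp))

lemma lim_int {f : ℝ → ℂ} (hf : IntegrableOn f (Ioi 0)) :
    Tendsto (fun r : ℝ => ∫ u in r..r⁻¹, f u) (𝓝[>] 0) (𝓝 (∫ u in Ioi 0, f u)) := by
  have h : AECover (volume.restrict (Ioi (0 : ℝ))) (𝓝[>] (0 : ℝ)) fun r : ℝ => Ioc r r⁻¹ :=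
    (aecover_Ioi_of_Ioi (tendsto_nhdsWithin_of_tendsto_nhds tendsto_id)).inter
      (aecover_Iic tendsto_inv_nhdsGT_zero)
  refine (h.integral_tendsto_of_countably_generated hf).congr' ?_
  filter_upwards [Ioc_mem_nhdsGT one_pos] with r hr
  rw [intervalIntegral.integral_of_le (hr.2.trans ((one_le_inv₀ hr.1).2 hr.2)),
    Measure.restrict_restrict measurableSet_Ioc,
    (inter_eq_left (t := Ioi 0)).2 fun u hu => hr.1.trans hu.1]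

lemma two_int {F : ℝ → ℂ} (hc : ContinuousOn F (Ioi 0)) {δ ε : ℝ} (hδ : 0 < δ) (hε : δ ≤ ε) :
    (∫ s in δ..ε, ((s⁻¹ : ℝ) : ℂ) * F (s / ε)) + ∫ s in δ..ε, ((s⁻¹ : ℝ) : ℂ) * F (ε / s) =
      ∫ u in δ / ε..(δ / ε)⁻¹, F u / u := by
  have e0 := hδ.trans_le hε
  have p : ∀ {a b : ℝ}, 0 < a → 0 < b → uIcc a b ⊆ Ioi 0 := fun ha hb s hs =>
    (lt_min ha hb).trans_le hs.1
  have c : ContinuousOn (fun u : ℝ => F u / u) (Ioi 0) :=
    hc.div (by fun_prop) fun u hu => Complex.ofReal_ne_zero.2 hu.ne'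
  have h1 := intervalIntegral.integral_comp_div (a := δ) (b := ε) (fun u : ℝ => F u / u) e0.ne'
  have h2 := intervalIntegral.integral_deriv_smul_comp' (a := ε) (b := δ) (f := fun s => ε / s)
    (f' := fun s => -ε / s ^ 2) (g := fun u : ℝ => F u / u) (fun s hs => by
      simpa [div_eq_mul_inv] using (hasDerivAt_inv (p e0 hδ hs).ne').const_mul ε)
    (continuousOn_const.div (by fun_prop) fun s hs => (pow_pos (p e0 hδ hs) 2).ne')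
    (c.mono (image_subset_iff.2 fun s hs => div_pos e0 (p e0 hδ hs)))
  rw [div_self e0.ne'] at h1 h2
  rw [← intervalIntegral.integral_add_adjacent_intervals (b := 1)
    (c.mono (p (div_pos hδ e0) one_pos)).intervalIntegrable
    (c.mono (p one_pos (inv_pos.2 (div_pos hδ e0)))).intervalIntegrable, inv_div, ← h2,
    intervalIntegral.integral_symm δ ε, ← intervalIntegral.integral_neg,
    ← (inv_smul_eq_iff₀ e0.ne').2 h1, ← intervalIntegral.integral_smul]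
  have e1 : (ε : ℂ) ≠ 0 := Complex.ofReal_ne_zero.2 e0.ne'
  congr 1 <;> refine intervalIntegral.integral_congr fun s hs => ?_ <;>
    have e2 : (s : ℂ) ≠ 0 := Complex.ofReal_ne_zero.2 (p hδ e0 hs).ne' <;>
    simp only [Function.comp, Complex.real_smul] <;> push_cast <;> field_simp

lemma iconj (f : ℝ → ℂ) (a b : ℝ) : ∫ s in a..b, conj (f s) = conj (∫ s in a..b, f s) := by
  simp only [intervalIntegral, integral_conj, map_sub]

variable {D : Type*} [NormedAddCommGroup D] [InnerProductSpace ℂ D] {c : Ctx D}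
  {g g' : P3 → ℝ} {χ φ φ' θ : ℝ → ℝ} {σ σ' : ℝ} {ell : (V → ℂ) → Completion D} {c0 : ℝ}
  {cc : (ℝ → ℝ) → (ℝ → ℝ) → ℂ} {dd : (ℝ → ℝ) → ℝ} {γ γ' : P3 → ℂ}

/-- the plateau between `δ` and `ε` -/
abbrev pa (σ : ℝ) (θ : ℝ → ℝ) (p : ℝ × ℝ) : ℝ → ℝ := ab σ (dil p.1 θ) θ p.2

lemma ev_sd (hσ : σ = 1 ∨ σ = -1) (hθ : Bump θ) (hχ : Sd χ) :
    ∀ᶠ p in LL, Sd (pa σ θ p) ∧ Sd (dil p.1 χ) := (ev_LL 0).mono fun p h =>
  ⟨sd_ab hσ (tst_dil hθ.1 (h.1.trans_le h.2.1)) hθ h.1, hχ.dil (h.1.trans_le h.2.1)⟩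

lemma plat_lim {B : Type*} [NormedAddCommGroup B] [NormedSpace ℂ B] [CompleteSpace B]
    (Λ : 𝓢(ℝ, ℂ) →L[ℂ] B) (hσ : σ = 1 ∨ σ = -1) (hθ : Bump θ) {C : ℝ}
    (hC : ∀ s, 0 < s → ‖Λ (S1 (dil s (ch σ θ)))‖ ≤ C * √s) :
    Tendsto (fun p => Λ (S1 (pa σ θ p))) LL (𝓝 0) := by
  obtain ⟨R, -, hR⟩ := rad hθ.1
  exact to0 ((ev_LL R).mono fun p h => plat_le Λ hσ hθ hR h.1 h.2.1 h.2.2.1 fun s hs =>
    hC s (h.1.trans_le hs.1))

/-- multiplication by `t` -/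
def mT : 𝓢(ℝ, ℂ) →L[ℂ] 𝓢(ℝ, ℂ) := SchwartzMap.smulLeftCLM ℂ fun t : ℝ => (t : ℂ)

lemma mT_S1 (h : Tst φ) : mT (S1 φ) = S1 (tm φ) := SchwartzMap.ext fun t => by
  rw [mT, SchwartzMap.smulLeftCLM_apply_apply (Ap.temp_cx .id'), S1_coe h, S1_coe (tst_tm h)]
  simp [cx, tm]

/-- the scalar products of the transverse profiles -/
def II (g g' : P3 → ℝ) : ℂ := ∫ k, conj (ft3 (cx g) k) * ft3 (cx g') k ∂m3

variable (h : Ell c ell c0)
include h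

lemma lim_t (hg : Tst g) (hχ : Tst χ) :
    Tendsto (fun p : ℝ × ℝ => c.Th (pr g (tm (dil p.1 χ)))) LL (𝓝 0) := by
  obtain ⟨C, -, hC⟩ := th_tdil h hg hχ
  exact to0 ((ev_LL 0).mono fun p k => hC _ (k.1.trans_le k.2.1))

lemma lim_ta (hσ : σ = 1 ∨ σ = -1) (hθ : Bump θ) (hg : Tst g) :
    Tendsto (fun p => c.Th (pr g (tm (pa σ θ p)))) LL (𝓝 0) := by
  have t := sd_ch hσ hθ
  obtain ⟨C, -, hC⟩ := th_tdil h hg t.1
  refine (plat_lim (ThL c g ∘L mT) hσ hθ (C := C) fun s hs => ?_).congr'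
    ((ev_sd hσ hθ t).mono fun p k => ?_)
  · rw [ContinuousLinearMap.comp_apply, mT_S1 (t.dil hs).1, ThL_S1 hg (tst_tm (t.dil hs).1)]
    exact hC s hs
  · simp only [ContinuousLinearMap.comp_apply, mT_S1 k.1.1, ThL_S1 hg (tst_tm k.1.1)]

lemma lim_d (hg : Tst g) (hχ : Tst χ) : Tendsto (fun p : ℝ × ℝ =>
    c.Th (pr g (dil p.1 χ)) - Tht ell (ft3 (cx g)) (dil p.1 χ)) LL (𝓝 0) := by
  obtain ⟨C, -, hC⟩ := dt_dil h hg hχ
  exact to0 ((ev_LL 0).mono fun p k => hC _ (k.1.trans_le k.2.1))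

lemma lim_da (hσ : σ = 1 ∨ σ = -1) (hθ : Bump θ) (hg : Tst g) : Tendsto (fun p =>
    c.Th (pr g (pa σ θ p)) - Tht ell (ft3 (cx g)) (pa σ θ p)) LL (𝓝 0) := by
  have t := sd_ch hσ hθ
  obtain ⟨C, -, hC⟩ := dt_dil h hg t.1
  refine (plat_lim (ThL c g - TtL h (mem_ft3 hg)) hσ hθ (C := C) fun s hs => ?_).congr'
    ((ev_sd hσ hθ t).mono fun p k => ?_)
  · rw [ContinuousLinearMap.sub_apply, ThL_S1 hg (t.dil hs).1, TtL_S1 h _ (t.dil hs).1]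
    exact hC s hs
  · simp only [ContinuousLinearMap.sub_apply, ThL_S1 hg k.1.1, TtL_S1 h _ k.1.1]

variable (t : T2 c)
include t

lemma lim_Rm (hσ : σ = 1 ∨ σ = -1) (hθ : Bump θ) (hχ : Sd χ) (hg : Tst g) (hg' : Tst g')
    (k : ∃ g0, Tst g0 ∧ (g = Dx (1, 0) g0 ∨ g' = Dx (1, 0) g0)) :
    Tendsto (fun p => Rm c g (pa σ θ p) g' (dil p.1 χ)) LL (𝓝 0) := by
  obtain ⟨g0, h0, rfl | rfl⟩ := k
  · refine squeeze_zero_norm' ((ev_sd hσ hθ hχ).mono fun p k => ?_) (by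
      simpa using tendsto_finset_sum Finset.univ fun i _ =>
        (lim_t h (tst_Dx (0, e2 i) hg') hχ.1).norm.mul (lim_ta h hσ hθ (tst_Dx (0, e2 i) h0)).norm)
    rw [← Rm_conj t hg' k.2 hg k.1, RCLike.norm_conj]
    simpa using Rm_le t hg' k.2.1 h0 k.1
  · refine squeeze_zero_norm' ((ev_sd hσ hθ hχ).mono fun p k => ?_) (by
      simpa using tendsto_finset_sum Finset.univ fun i _ =>
        (lim_ta h hσ hθ (tst_Dx (0, e2 i) hg)).norm.mul (lim_t h (tst_Dx (0, e2 i) h0) hχ.1).norm)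
    simpa using Rm_le t hg k.1.1 h0 k.2

variable (S : Schur c ell cc dd)
include S

lemma kt_pa (hσ : σ = 1 ∨ σ = -1) (hθ : Bump θ) (hγ : MemLp γ 2 m3) : ∃ C : ℝ, ∀ᶠ p in LL,
    ∀ w, Dm c.Sk w → ‖inner ℂ (Tht ell γ (pa σ θ p)) (gen c.Sk w)‖ ≤ C * ‖w‖ := by
  obtain ⟨R, -, hR⟩ := rad hθ.1
  have d := sd_ch hσ hθ
  refine ⟨2 * √(dd (ch σ θ) * ∫ k, ‖γ k‖ ^ 2 ∂m3), ?_⟩
  filter_upwards [ev_LL R, ev_sd hσ hθ d] with p a b w hw
  have := plat_le (innerSL ℂ (gen c.Sk w) ∘L TtL h hγ) hσ hθ hR a.1 a.2.1 a.2.2.1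
    (C := √(dd (ch σ θ) * ∫ k, ‖γ k‖ ^ 2 ∂m3) * ‖w‖) fun s hs => by
      have s0 := a.1.trans_le hs.1
      have e := S.nrm γ _ hγ (d.dil s0).d0
      rw [S.sdd _ _ d.d0 s0, mul_assoc, mul_comm] at e
      rw [ContinuousLinearMap.comp_apply, TtL_S1 h _ (d.dil s0).1, innerSL_apply_apply,
        ← t.kt.ugk.symm hw.gn (S.dom γ _ hγ (d.dil s0).d0).gn, mul_right_comm,
        ← Real.sqrt_mul' _ s0.le, ← e, Real.sqrt_sq (norm_nonneg _), mul_comm]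
      exact norm_inner_le_norm _ _
  rw [ContinuousLinearMap.comp_apply, TtL_S1 h _ b.1.1, innerSL_apply_apply, norm_inner_symm,
    ← mul_assoc] at this
  exact this.trans (mul_le_of_le_one_right (by positivity) (Real.sqrt_le_one.2 a.2.2.2))

lemma lim_cc (hσ : σ = 1 ∨ σ = -1) (hθ : Bump θ) (hχ : Sd χ) (hg : Tst g) (hg' : Tst g')
    (k : ∃ g0, Tst g0 ∧ (g = Dx (1, 0) g0 ∨ g' = Dx (1, 0) g0)) :
    Tendsto (fun p => c.PF (pr g (pa σ θ p)) (pr g' (dil p.1 χ)) - inner ℂ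
      (Tht ell (ft3 (cx g)) (pa σ θ p)) (gen c.Sk (Tht ell (ft3 (cx g')) (dil p.1 χ)))) LL (𝓝 0) := by
  obtain ⟨C, hC⟩ := kt_pa h t S hσ hθ (mem_ft3 hg)
  obtain ⟨C', -, hC'⟩ := cell t.grp t.kd t.kt hg' hχ
  have h1 : Tendsto (fun p => inner ℂ (c.Th (pr g (pa σ θ p)) - Tht ell (ft3 (cx g)) (pa σ θ p))
      (gen c.Sk (c.Th (pr g' (dil p.1 χ))))) LL (𝓝 0) :=
    squeeze_zero_norm' ((ev_LL 0).mono fun p a => (norm_inner_le_norm _ _).trans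
      (mul_le_mul_of_nonneg_left (hC' _ (a.1.trans_le a.2.1) a.2.2.2) (norm_nonneg _)))
      (by simpa using (lim_da h hσ hθ hg).norm.mul_const C')
  have h2 : Tendsto (fun p => inner ℂ (Tht ell (ft3 (cx g)) (pa σ θ p)) (gen c.Sk
      (c.Th (pr g' (dil p.1 χ)) - Tht ell (ft3 (cx g')) (dil p.1 χ)))) LL (𝓝 0) :=
    squeeze_zero_norm' ((hC.and (ev_sd hσ hθ hχ)).mono fun p a => a.1 _
      ((dm_k t hg' a.2.2).sub (S.dom _ _ (mem_ft3 hg') a.2.2.d0)))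
      (by simpa using (lim_d h hg' hχ.1).norm.const_mul C)
  have h3 := ((lim_Rm h t hσ hθ hχ hg hg' k).add h1).add h2
  rw [add_zero, add_zero] at h3
  refine h3.congr' ((ev_sd hσ hθ hχ).mono fun p a => ?_)
  simp only [Rm, gen_sub (dm_k t hg' a.2) (S.dom _ _ (mem_ft3 hg') a.2.d0), inner_sub_left,
    inner_sub_right]
  ring

lemma cc_pa (hσ : σ = 1 ∨ σ = -1) (hθ : Bump θ) (hγ : MemLp γ 2 m3) (hγ' : MemLp γ' 2 m3) :
    ∀ᶠ p in LL, ∀ φ, D0 φ → inner ℂ (Tht ell γ' φ) (gen c.Sk (Tht ell γ (pa σ θ p))) =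
      ∫ s in p.2..p.1, ((s⁻¹ : ℝ) : ℂ) *
        inner ℂ (Tht ell γ' φ) (gen c.Sk (Tht ell γ (dil s (ch σ θ)))) := by
  obtain ⟨R, -, hR⟩ := rad hθ.1
  have d := sd_ch hσ hθ
  filter_upwards [ev_LL R, ev_sd hσ hθ d] with p a b φ hφ
  have e : ∀ ψ, Sd ψ → (innerSL ℂ (gen c.Sk (Tht ell γ' φ)) ∘L TtL h hγ) (S1 ψ) =
      inner ℂ (Tht ell γ' φ) (gen c.Sk (Tht ell γ ψ)) := fun ψ hψ => by
    rw [ContinuousLinearMap.comp_apply, TtL_S1 h _ hψ.1, innerSL_apply_apply,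
      ← t.kt.ugk.symm (S.dom _ _ hγ' hφ).gn (S.dom γ _ hγ hψ.d0).gn]
  rw [← e _ b.1, plat _ hσ hθ hR a.1 a.2.1 a.2.2.1]
  exact intervalIntegral.integral_congr fun s hs => by
    simp only [e _ (d.dil ((lt_min a.1 (a.1.trans_le a.2.1)).trans_le hs.1)), smul_eq_mul]

/-- the plateau on the left -/
theorem faceL (hσ : σ = 1 ∨ σ = -1) (hθ : Bump θ) (hχ : Sd χ) (hg : Tst g) (hg' : Tst g')
    (k : ∃ g0, Tst g0 ∧ (g = Dx (1, 0) g0 ∨ g' = Dx (1, 0) g0)) :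
    Tendsto (fun p => c.PF (pr g (pa σ θ p)) (pr g' (dil p.1 χ)) - (∫ s in p.2..p.1,
      ((s⁻¹ : ℝ) : ℂ) * cc (dil (s / p.1) (ch σ θ)) χ) * II g g') LL (𝓝 0) := by
  have d := sd_ch hσ hθ
  refine (lim_cc h t S hσ hθ hχ hg hg' k).congr' ?_
  filter_upwards [cc_pa h t S hσ hθ (mem_ft3 hg) (mem_ft3 hg'), ev_sd hσ hθ hχ, ev_LL 0]
    with p a b e
  have e0 := e.1.trans_le e.2.1
  rw [← sym_inner t.kt.ugk (S.dom _ _ (mem_ft3 hg') b.2.d0) (S.dom _ _ (mem_ft3 hg) b.1.d0),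
    a _ b.2.d0, ← intervalIntegral.integral_mul_const, ← iconj]
  congr 1
  refine intervalIntegral.integral_congr fun s hs => ?_
  have s0 := (lt_min e.1 e0).trans_le hs.1
  simp only [map_mul, Complex.conj_ofReal]
  rw [sym_inner t.kt.ugk (S.dom _ _ (mem_ft3 hg') b.2.d0) (S.dom _ _ (mem_ft3 hg) (d.dil s0).d0),
    S.form _ _ _ _ (mem_ft3 hg) (d.dil s0).d0 (mem_ft3 hg') b.2.d0,
    ← S.scc _ _ _ (d.dil (div_pos s0 e0)).d0 hχ.d0 e0, dil_dil, mul_div_cancel₀ _ e0.ne', mul_assoc,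
    II]

/-- the plateau on the right -/
theorem faceR (hσ : σ = 1 ∨ σ = -1) (hθ : Bump θ) (hχ : Sd χ) (hg : Tst g) (hg' : Tst g')
    (k : ∃ g0, Tst g0 ∧ (g = Dx (1, 0) g0 ∨ g' = Dx (1, 0) g0)) :
    Tendsto (fun p => c.PF (pr g' (dil p.1 χ)) (pr g (pa σ θ p)) - (∫ s in p.2..p.1,
      ((s⁻¹ : ℝ) : ℂ) * cc (dil (p.1 / s) χ) (ch σ θ)) * II g' g) LL (𝓝 0) := by
  have d := sd_ch hσ hθ
  have := (Complex.continuous_conj.tendsto' _ _ (map_zero _)).comp (lim_cc h t S hσ hθ hχ hg hg' k)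
  refine this.congr' ?_
  filter_upwards [cc_pa h t S hσ hθ (mem_ft3 hg) (mem_ft3 hg'), ev_sd hσ hθ hχ, ev_LL 0]
    with p a b e
  have e0 := e.1.trans_le e.2.1
  rw [Function.comp, map_sub, PF_conj t hg b.1 hg' b.2,
    sym_inner t.kt.ugk (S.dom _ _ (mem_ft3 hg) b.1.d0) (S.dom _ _ (mem_ft3 hg') b.2.d0),
    a _ b.2.d0, ← intervalIntegral.integral_mul_const]
  congr 1
  refine intervalIntegral.integral_congr fun s hs => ?_
  have s0 := (lt_min e.1 e0).trans_le hs.1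
  rw [S.form _ _ _ _ (mem_ft3 hg') b.2.d0 (mem_ft3 hg) (d.dil s0).d0,
    ← S.scc _ _ _ (hχ.dil (div_pos e0 s0)).d0 d.d0 s0, dil_dil, mul_div_cancel₀ _ s0.ne', mul_assoc,
    II]

end

end Vale.Agent.P352X.Ib
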