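import Vale.Agent.P352X.R.IB.Cell

/-!
# P352X, row IB: the part `K0` of the plane form (helper83)
-/

set_option linter.all false

open MeasureTheory Filter Topology Set
open scoped SchwartzMap ComplexConjugate ContDiff Real

namespace Vale.Agent.P352X.Ib

open Vale.Agent.P352 Vale.Agent.P352.GF Vale.Agent.P352.BW Vale.Agent.P352.H246
open Vale.Agent.P352.H496 Vale.Agent.P352.H755
open UniformSpace (Completion)
open Complex (I exp)

noncomputable section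

variable {D : Type*} [NormedAddCommGroup D] [InnerProductSpace ℂ D] {c : Ctx D} {f u v : Fn}
  {g g' : P3 → ℝ} {χ φ φ' : ℝ → ℝ}

/-- `x_i f` -/
def Xc (i : Fin 2) (f : Fn) : Fn := fun z => (tx z i : ℝ) * f z
/-- `be ∂_i f` -/
def Nc (i : Fin 2) (f : Fn) : Fn := fun z => (be z : ℝ) * dv (ex i) f z

lemma test_Xc (i : Fin 2) (hf : IsTest f) : IsTest (Xc i f) := Ap.test_tx i hf
lemma test_Nc (i : Fin 2) (hf : IsTest f) : IsTest (Nc i f) := Ap.test_be (Ap.test_dv _ hf)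

lemma da_Xc (i : Fin 2) (hf : IsTest f) : dv va (Xc i f) = Xc i (dv va f) := funext fun z => by
  have := Ap.dv_mul (f := fun z => (tx z i : ℝ)) (x := z)
    ((Ap.smooth_cx (by fun_prop)).differentiable (by simp) z) (Ap.sw_diff hf z) va
  rw [Ap.dv_tx, tx_va, Pi.zero_apply, Complex.ofReal_zero, zero_mul, zero_add] at this
  exact this

lemma da_Nc (i : Fin 2) (hf : IsTest f) : dv va (Nc i f) = Nc i (dv va f) := funext fun z => by
  have := Ap.dv_mul (f := fun z => (be z : ℝ)) (x := z)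
    ((Ap.smooth_cx (by fun_prop)).differentiable (by simp) z) (Ap.sw_diff (Ap.test_dv (ex i) hf) z) va
  rw [Ap.dv_be, Ap.dv_comm (Ap.sw_smooth hf), be_va, Complex.ofReal_zero, zero_mul, zero_add] at this
  exact this

lemma da_Mc (i : Fin 2) (hf : IsTest f) : dv va (Mc i f) = Mc i (dv va f) := funext fun z => by
  have := Ap.dv_add (Ap.sw_diff (test_Xc i (Ap.test_dv va hf)) z) (Ap.sw_diff (test_Nc i hf) z) va
  rw [da_Xc i (Ap.test_dv va hf), da_Nc i hf] at this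
  exact this

lemma th_Mc (i : Fin 2) (hf : IsTest f) : c.Th (Mc i f) = c.Th (Xc i (dv va f)) + c.Th (Nc i f) :=
  th_add (test_Xc i (Ap.test_dv va hf)) (test_Nc i hf)

lemma gn_P (E : GEN c) (hf : IsTest f) : Gn (Pa c.Q) (c.Th f) (I • c.Th (dv va f)) := E.uth va f hf

lemma mp (E : GEN c) (i : Fin 2) (hf : IsTest f) :
    gen (Mi c.Q i) (c.Th f) = gen (Pa c.Q) (c.Th (Xc i f)) + I • c.Th (Nc i f) := by
  rw [(E.mith i f hf).gen_eq, (gn_P E (test_Xc i hf)).gen_eq, th_Mc i hf, da_Xc i hf, smul_add]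

/-- `K0` on derivatives along `al` -/
theorem gn_K0 (G : GRP c) (E : GEN c) (T : KT c) (hf : IsTest f) :
    Gn c.S0 (c.Th (dv va f)) (∑ i, gen (Mi c.Q i) (c.Th (Mc i f))) := by
  have t := Ap.test_dv va hf
  have m := fun i {f} (hf : IsTest f) => E.mith i f hf
  refine T.k0 _ _ (fun i => ⟨(m i t).dm, (m i t).gen_eq ▸ (m i (Ap.test_Mc i t)).dm.smul I⟩) ?_
    (Gn.sum _ fun i _ => ?_)
  · simp only [inner_sum, fun i => (m i (Ap.test_Mc i hf)).gen_eq, inner_smul_right,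
      fun i => th_perp G (Ap.test_Mc i (Ap.test_Mc i hf)), mul_zero, Finset.sum_const_zero]
  · rw [(m i (Ap.test_Mc i hf)).gen_eq, (m i t).gen_eq, ((m i (Ap.test_Mc i t)).smul I).gen_eq,
      ← da_Mc i hf, ← da_Mc i (Ap.test_Mc i hf)]
    exact (gn_P E (Ap.test_Mc i (Ap.test_Mc i hf))).smul I

lemma PF_eq (hu : bar u = u) (v : Fn) : c.PF u v = inner ℂ (c.Th u) (gen c.SK (c.Th v)) -
    ∑ i, (inner ℂ (c.Th (Xc i u)) (gen (Mi c.Q i) (c.Th v)) +
      inner ℂ (c.Th u) (gen (Mi c.Q i) (c.Th (Xc i v)))) +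
    ∑ i, inner ℂ (c.Th (Xc i u)) (gen (Pa c.Q) (c.Th (Xc i v))) := by
  simp only [Ctx.PF, Ap.bar_rmul, hu]
  rfl

/-- **The part `K0` of the plane form.** -/
theorem pf_K0 (G : GRP c) (E : GEN c) (T : KT c) (hu : IsTest u) (hb : bar u = u) (hf : IsTest f)
    (hd : Dm c.SK (c.Th (dv va f))) : c.PF u (dv va f) - inner ℂ (c.Th u) (gen c.Sk (c.Th (dv va f))) =
      -I * ∑ i, inner ℂ (c.Th (Nc i u)) (c.Th (Nc i f)) := by
  have t := Ap.test_dv va hf
  have m := fun i {f} (hf : IsTest f) => (E.mith i f hf).dm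
  rw [PF_eq hb, (T.split _ hd).1, (gn_K0 G E T hf).gen_eq, inner_add_right, inner_sum,
    Finset.mul_sum]
  have e : ∀ i, inner ℂ (c.Th u) (gen (Mi c.Q i) (c.Th (Mc i f))) -
      (inner ℂ (c.Th (Xc i u)) (gen (Mi c.Q i) (c.Th (dv va f))) +
        inner ℂ (c.Th u) (gen (Mi c.Q i) (c.Th (Xc i (dv va f))))) +
      inner ℂ (c.Th (Xc i u)) (gen (Pa c.Q) (c.Th (Xc i (dv va f)))) =
      -I * inner ℂ (c.Th (Nc i u)) (c.Th (Nc i f)) := fun i => by
    rw [th_Mc i hf, gen_add (m i (test_Xc i t)) (m i (test_Nc i hf)), inner_add_right,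
      (G.ugM i).symm (m i hu).gn (m i (test_Nc i hf)).gn, mp E i hu, mp E i t, ← da_Nc i hf,
      inner_add_right, inner_add_left, G.ugPa.symm (gn_P E (test_Xc i hu)).dm.gn
        (gn_P E (test_Nc i hf)), inner_smul_left, Complex.conj_I]
    ring
  simp only [← e, Finset.sum_add_distrib, Finset.sum_sub_distrib]
  ring

lemma sym_inner {H : Type*} [NormedAddCommGroup H] [InnerProductSpace ℂ H] [CompleteSpace H]
    {W : ℝ → H →L[ℂ] H} (g : UG W) {x y : H} (hx : Dm W x) (hy : Dm W y) :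
    conj (inner ℂ x (gen W y)) = inner ℂ y (gen W x) := by
  rw [g.symm hx.gn hy.gn, inner_conj_symm]

theorem pf_symm (G : GRP c) (E : GEN c) (hu : IsTest u) (hb : bar u = u) (hv : IsTest v)
    (hb' : bar v = v) (du : Dm c.SK (c.Th u)) (dw : Dm c.SK (c.Th v)) :
    conj (c.PF u v) = c.PF v u := by
  have m := fun i {f} (hf : IsTest f) => (E.mith i f hf).dm
  simp only [PF_eq hb, PF_eq hb', map_add, map_sub, map_sum, sym_inner c.ugK du dw,
    fun i => sym_inner (G.ugM i) (m i (test_Xc i hu)) (m i hv),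
    fun i => sym_inner (G.ugM i) (m i hu) (m i (test_Xc i hv)),
    fun i => sym_inner G.ugPa (gn_P E (test_Xc i hu)).dm (gn_P E (test_Xc i hv)).dm]
  simp only [add_comm (inner ℂ (c.Th v) _)]

/-! ### products -/

/-- directional derivatives -/
def Dx (w : P3) (g : P3 → ℝ) : P3 → ℝ := fun y => fderiv ℝ g y w
/-- `t φ(t)` -/
def tm (φ : ℝ → ℝ) : ℝ → ℝ := fun t => t * φ t

lemma tst_Dx (w : P3) (hg : Tst g) : Tst (Dx w g) := Ap.cs_fderiv w hg
lemma tst_tm (h : Tst φ) : Tst (tm φ) := Ap.cs_mul_l contDiff_id h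

lemma dv_pr (hg : Tst g) (hφ : Tst φ) {h : V} (hh : be h = 0) :
    dv h (pr g φ) = pr (Dx (pl h) g) φ := funext fun z => by
  refine Ap.dv_of_hasDerivAt (Ap.sw_diff (test_pr hg hφ) z) ?_
  have h1 : HasDerivAt (fun t : ℝ => pl z + t • pl h) (pl h) 0 := by
    simpa using ((hasDerivAt_id (0 : ℝ)).smul_const (pl h)).const_add (pl z)
  have h2 := ((hg.1.differentiable (by simp) (pl z)).hasFDerivAt.comp_hasDerivAt_of_eq (0 : ℝ) h1
    (by simp)).mul_const (φ (be z))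
  refine h2.ofReal_comp.congr_of_eventuallyEq (.of_forall fun t => ?_)
  simp [pr, pl, hh]

lemma Nc_pr (i : Fin 2) (hg : Tst g) (hφ : Tst φ) : Nc i (pr g φ) = pr (Dx (0, e2 i) g) (tm φ) := by
  funext z
  rw [Nc, dv_pr hg hφ (be_ex i)]
  simp [pr, pl, tm, mul_left_comm]

lemma da_pr (hg : Tst g) (hφ : Tst φ) : dv va (pr g φ) = pr (Dx (1, 0) g) φ := by
  simpa [pl] using dv_pr hg hφ be_va

variable (c) in
/-- the remainder -/
def Rm (g : P3 → ℝ) (φ : ℝ → ℝ) (g' : P3 → ℝ) (φ' : ℝ → ℝ) : ℂ :=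
  c.PF (pr g φ) (pr g' φ') - inner ℂ (c.Th (pr g φ)) (gen c.Sk (c.Th (pr g' φ')))

variable (t : T2 c)
include t

lemma dm_k (hg : Tst g) (hφ : Sd φ) : Dm c.Sk (c.Th (pr g φ)) :=
  ((t.kt.dom _).1 (dm_pr t.grp t.kd hg hφ)).1

lemma PF_conj (hg : Tst g) (hφ : Sd φ) (hg' : Tst g') (hφ' : Sd φ') :
    conj (c.PF (pr g φ) (pr g' φ')) = c.PF (pr g' φ') (pr g φ) :=
  pf_symm t.grp t.gen (test_pr hg hφ.1) (Far.bar_pr _ _) (test_pr hg' hφ'.1) (Far.bar_pr _ _)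
    (dm_pr t.grp t.kd hg hφ) (dm_pr t.grp t.kd hg' hφ')

lemma Rm_conj (hg : Tst g) (hφ : Sd φ) (hg' : Tst g') (hφ' : Sd φ') :
    conj (Rm c g φ g' φ') = Rm c g' φ' g φ := by
  rw [Rm, map_sub, PF_conj t hg hφ hg' hφ', sym_inner t.kt.ugk (dm_k t hg hφ) (dm_k t hg' hφ'), Rm]

theorem Rm_le (hg : Tst g) (hφ : Tst φ) (hg' : Tst g') (hφ' : Sd φ') :
    ‖Rm c g φ (Dx (1, 0) g') φ'‖ ≤
      ∑ i, ‖c.Th (pr (Dx (0, e2 i) g) (tm φ))‖ * ‖c.Th (pr (Dx (0, e2 i) g') (tm φ'))‖ := by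
  have d := dm_pr t.grp t.kd (tst_Dx (1, 0) hg') hφ'
  rw [Rm]
  rw [← da_pr hg' hφ'.1] at d ⊢
  rw [pf_K0 t.grp t.gen t.kt (test_pr hg hφ) (Far.bar_pr _ _) (test_pr hg' hφ'.1) d, norm_mul,
    norm_neg, Complex.norm_I, one_mul]
  simp only [fun i => Nc_pr i hg hφ, fun i => Nc_pr i hg' hφ'.1]
  exact (norm_sum_le _ _).trans (Finset.sum_le_sum fun i _ => norm_inner_le_norm _ _)

end

end Vale.Agent.P352X.Ib
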